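import Mathlib

namespace Vale.Agent.Lib.P031

open Filter Topology

section abstract

variable {V : ℝ → ℝ}

theorem iterate_lower {c a X0 : ℝ} (hc : 1 ≤ c) (ha : 0 ≤ a) (hX0 : 1 ≤ X0)
    (h : ∀ x, X0 ≤ x → a * V x ≤ V (c * x)) (j : ℕ) :
    a ^ j * V X0 ≤ V (c ^ j * X0) := by
  induction j with
  | zero => simp
  | succ j ih =>
    have h1 : X0 ≤ c ^ j * X0 := by
      have : 1 ≤ c ^ j := one_le_pow₀ hc
      nlinarith
    have h2 := h _ h1
    calc a ^ (j + 1) * V X0 = a * (a ^ j * V X0) := by ring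
      _ ≤ a * V (c ^ j * X0) := mul_le_mul_of_nonneg_left ih ha
      _ ≤ V (c * (c ^ j * X0)) := h2
      _ = V (c ^ (j + 1) * X0) := by ring_nf

theorem iterate_upper {c a X0 : ℝ} (hc : 1 ≤ c) (ha : 0 ≤ a) (hX0 : 1 ≤ X0)
    (h : ∀ x, X0 ≤ x → V (c * x) ≤ a * V x) (j : ℕ) :
    V (c ^ j * X0) ≤ a ^ j * V X0 := by
  induction j with
  | zero => simp
  | succ j ih =>
    have h1 : X0 ≤ c ^ j * X0 := by
      have : 1 ≤ c ^ j := one_le_pow₀ hc
      nlinarith
    have h2 := h _ h1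
    calc V (c ^ (j + 1) * X0) = V (c * (c ^ j * X0)) := by ring_nf
      _ ≤ a * V (c ^ j * X0) := h2
      _ ≤ a * (a ^ j * V X0) := mul_le_mul_of_nonneg_left ih ha
      _ = a ^ (j + 1) * V X0 := by ring

/-- If `V x ≤ x` and `V > 0` on `[1, ∞)`, the ratio `V (c x) / V x` is frequently below
`c + ε`. -/
theorem frequently_lt (hpos : ∀ x, 1 ≤ x → 0 < V x) (hle : ∀ x, 0 ≤ x → V x ≤ x)
    {c ε : ℝ} (hc : 1 < c) (hε : 0 < ε) :
    ∃ᶠ x in atTop, V (c * x) / V x < c + ε := by
  intro hnot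
  obtain ⟨X1, hX1⟩ := eventually_atTop.1 hnot
  set X0 := max X1 1 with hX0def
  have hX0 : 1 ≤ X0 := le_max_right _ _
  have hstep : ∀ x, X0 ≤ x → (c + ε) * V x ≤ V (c * x) := by
    intro x hx
    have hx1 : 1 ≤ x := hX0.trans hx
    have := hX1 x ((le_max_left _ _).trans hx)
    rw [not_lt, le_div_iff₀ (hpos x hx1)] at this
    exact this
  have hiter := iterate_lower (V := V) hc.le (by linarith) hX0 hstep
  have hVX0 := hpos X0 hX0
  have hbound : ∀ j : ℕ, ((c + ε) / c) ^ j ≤ X0 / V X0 := by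
    intro j
    have h1 := hiter j
    have h2 : V (c ^ j * X0) ≤ c ^ j * X0 := hle _ (by positivity)
    have hcj : 0 < c ^ j := by positivity
    rw [div_pow, div_le_div_iff₀ hcj hVX0]
    linarith
  have hgt : 1 < (c + ε) / c := by
    rw [lt_div_iff₀ (by linarith)]; linarith
  obtain ⟨j, hj⟩ := (tendsto_pow_atTop_atTop_of_one_lt hgt).eventually
    (eventually_gt_atTop (X0 / V X0)) |>.exists
  exact absurd (hbound j) (not_le.2 hj)

/-- If `V` is monotone, `V x ≤ x`, and `V y ≥ y / (4 log y)` for large `y`, the ratio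
`V (c x) / V x` is frequently above `c - ε`. -/
theorem frequently_gt (hpos : ∀ x, 1 ≤ x → 0 < V x) (hle : ∀ x, 0 ≤ x → V x ≤ x)
    (hmono : Monotone V) {Y : ℝ} (hge : ∀ y, Y ≤ y → y / (4 * Real.log y) ≤ V y)
    {c ε : ℝ} (hc : 1 < c) (hε : 0 < ε) :
    ∃ᶠ x in atTop, c - ε < V (c * x) / V x := by
  intro hnot
  obtain ⟨X1, hX1⟩ := eventually_atTop.1 hnot
  set X0 := max (max X1 Y) 2 with hX0def
  have hX02 : 2 ≤ X0 := le_max_right _ _
  have hX0 : 1 ≤ X0 := by linarith
  have hX0Y : Y ≤ X0 := (le_max_right _ _).trans (le_max_left _ _)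
  have hX0X1 : X1 ≤ X0 := (le_max_left _ _).trans (le_max_left _ _)
  have hstep : ∀ x, X0 ≤ x → V (c * x) ≤ (c - ε) * V x := by
    intro x hx
    have hx1 : 1 ≤ x := hX0.trans hx
    have := hX1 x (hX0X1.trans hx)
    rw [not_lt, div_le_iff₀ (hpos x hx1)] at this
    exact this
  have hVX0 := hpos X0 hX0
  -- `c - ε ≥ 1`
  have ha1 : 1 ≤ c - ε := by
    have h1 := hstep X0 le_rfl
    have h2 : V X0 ≤ V (c * X0) := hmono (by nlinarith)
    by_contra hcon
    push Not at hcon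
    nlinarith
  have ha0 : 0 ≤ c - ε := by linarith
  have hiter := iterate_upper (V := V) hc.le ha0 hX0 hstep
  set θ := (c - ε) / c with hθ
  have hθ0 : 0 ≤ θ := div_nonneg ha0 (by linarith)
  have hθ1 : θ < 1 := by
    rw [hθ, div_lt_one (by linarith)]; linarith
  have hlogc : 0 < Real.log c := Real.log_pos hc
  have hlogX0 : 0 < Real.log X0 := Real.log_pos (by linarith)
  have hbound : ∀ j : ℕ, 1 ≤ 4 * (θ ^ j * (j * Real.log c + Real.log X0)) := by
    intro j
    have hcj : 0 < c ^ j := by positivity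
    have hyj : X0 ≤ c ^ j * X0 := by
      have : 1 ≤ c ^ j := one_le_pow₀ hc.le
      nlinarith
    have h1 := hiter j
    have h2 := hge (c ^ j * X0) (hX0Y.trans hyj)
    have h3 : V X0 ≤ X0 := hle X0 (by linarith)
    have hlog : Real.log (c ^ j * X0) = j * Real.log c + Real.log X0 := by
      rw [Real.log_mul (by positivity) (by positivity), Real.log_pow]
    rw [hlog] at h2
    have hL : 0 < (j : ℝ) * Real.log c + Real.log X0 := by positivity
    have h4 : c ^ j * X0 / (4 * (j * Real.log c + Real.log X0)) ≤ (c - ε) ^ j * X0 := by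
      refine h2.trans (h1.trans ?_)
      exact mul_le_mul_of_nonneg_left h3 (by positivity)
    rw [div_le_iff₀ (by positivity)] at h4
    have h5 : c ^ j ≤ (c - ε) ^ j * (4 * (j * Real.log c + Real.log X0)) := by
      have hX0pos : 0 < X0 := by linarith
      nlinarith
    have h6 : θ ^ j = (c - ε) ^ j / c ^ j := by rw [hθ, div_pow]
    rw [h6]
    have h7 : 1 ≤ (c - ε) ^ j * (4 * (j * Real.log c + Real.log X0)) / c ^ j := by
      rw [le_div_iff₀ hcj]; linarith
    calc (1 : ℝ) ≤ (c - ε) ^ j * (4 * (j * Real.log c + Real.log X0)) / c ^ j := h7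
      _ = 4 * ((c - ε) ^ j / c ^ j * (j * Real.log c + Real.log X0)) := by ring
  have hlim : Tendsto (fun j : ℕ => 4 * (θ ^ j * (j * Real.log c + Real.log X0))) atTop (𝓝 0) := by
    have h1 : Tendsto (fun j : ℕ => (j : ℝ) * θ ^ j) atTop (𝓝 0) :=
      tendsto_self_mul_const_pow_of_lt_one hθ0 hθ1
    have h2 : Tendsto (fun j : ℕ => θ ^ j) atTop (𝓝 0) :=
      tendsto_pow_atTop_nhds_zero_of_lt_one hθ0 hθ1
    have h3 : Tendsto (fun j : ℕ => 4 * (Real.log c * ((j : ℝ) * θ ^ j) + Real.log X0 * θ ^ j))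
        atTop (𝓝 (4 * (Real.log c * 0 + Real.log X0 * 0))) :=
      ((h1.const_mul _).add (h2.const_mul _)).const_mul 4
    simp only [mul_zero, add_zero] at h3
    refine h3.congr (fun j => ?_)
    ring
  obtain ⟨j, hj⟩ := (hlim.eventually (gt_mem_nhds (show (0 : ℝ) < 1 by norm_num))).exists
  exact absurd (hbound j) (not_le.2 hj)

/-- The only possible limit of `V (c x) / V x` is `c`. -/
theorem limit_eq (hpos : ∀ x, 1 ≤ x → 0 < V x) (hle : ∀ x, 0 ≤ x → V x ≤ x)
    (hmono : Monotone V) {Y : ℝ} (hge : ∀ y, Y ≤ y → y / (4 * Real.log y) ≤ V y)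
    {c g : ℝ} (hc : 1 < c) (h : Tendsto (fun x => V (c * x) / V x) atTop (𝓝 g)) : g = c := by
  apply le_antisymm
  · by_contra hcon
    push Not at hcon
    have hε : 0 < (g - c) / 2 := by linarith
    have h1 := frequently_lt hpos hle hc hε
    have h2 : ∀ᶠ x in atTop, c + (g - c) / 2 < V (c * x) / V x :=
      h.eventually (lt_mem_nhds (by linarith))
    obtain ⟨x, hx1, hx2⟩ := (h1.and_eventually h2).exists
    linarith
  · by_contra hcon
    push Not at hcon
    have hε : 0 < (c - g) / 2 := by linarith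
    have h1 := frequently_gt hpos hle hmono hge hc hε
    have h2 : ∀ᶠ x in atTop, V (c * x) / V x < c - (c - g) / 2 :=
      h.eventually (gt_mem_nhds (by linarith))
    obtain ⟨x, hx1, hx2⟩ := (h1.and_eventually h2).exists
    linarith

end abstract

end Vale.Agent.Lib.P031
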