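import Vale.Agent.Lib.P031.Totient

/-!
# `c` is a limit point of `V (c x) / V x`

The ratio `V (c x) / V x` is below `c + ε` for arbitrarily large `x` and above `c - ε` for
arbitrarily large `x` (file `Totient`).  Along the points `x = j / c` the numerator is `V j`, both
numerator and denominator grow by at most one per step, so the ratio cannot jump upwards by
more than `1 / V (j / c)`; hence it takes values in `(c - ε, c + ε)` for arbitrarily large `x`.
-/

namespace Vale.Agent.Lib.P031

open Filter Topology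

/-- At most one new totient value appears when the bound grows by at most one. -/
theorem totientValueCount_le_add_one {y y' : ℝ} (h : y' ≤ y + 1) :
    (totientValueCount y' : ℝ) ≤ totientValueCount y + 1 := by
  have hsub : totientValues y' ⊆ insert ⌊y'⌋₊ (totientValues y) := by
    rintro v ⟨hv, hn⟩
    by_cases hvy : (v : ℝ) ≤ y
    · exact Set.mem_insert_of_mem _ ⟨hvy, hn⟩
    · rw [not_le] at hvy
      have h1 : v ≤ ⌊y'⌋₊ := Nat.le_floor hv
      have hy'0 : 0 ≤ y' := le_trans (Nat.cast_nonneg v) hv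
      have h3 : (⌊y'⌋₊ : ℝ) ≤ y' := Nat.floor_le hy'0
      have h4 : (⌊y'⌋₊ : ℝ) < (v : ℝ) + 1 := by linarith
      have h5 : ⌊y'⌋₊ < v + 1 := by exact_mod_cast h4
      have h6 : v = ⌊y'⌋₊ := by omega
      rw [h6]
      exact Set.mem_insert _ _
  have hfin : (insert ⌊y'⌋₊ (totientValues y)).Finite := (totientValues_finite y).insert _
  have h1 := Set.ncard_le_ncard hsub hfin
  have h2 := Set.ncard_insert_le ⌊y'⌋₊ (totientValues y)
  rw [totientValueCount_eq, totientValueCount_eq]
  exact_mod_cast h1.trans h2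

/-- `V y` only depends on the integer part of `y`. -/
theorem totientValueCount_floor {y : ℝ} (hy : 0 ≤ y) :
    totientValueCount (⌊y⌋₊ : ℝ) = totientValueCount y := by
  rw [totientValueCount_eq, totientValueCount_eq]
  congr 1
  ext v
  constructor
  · rintro ⟨hv, hn⟩
    exact ⟨hv.trans (Nat.floor_le hy), hn⟩
  · rintro ⟨hv, hn⟩
    exact ⟨by exact_mod_cast Nat.le_floor hv, hn⟩

/-- `V x` tends to infinity. -/
theorem totientValueCount_tendsto :
    Tendsto (fun x : ℝ => (totientValueCount x : ℝ)) atTop atTop := by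
  have h1 : Tendsto (fun x : ℝ => ((Nat.primeCounting ⌊x⌋₊ : ℕ) : ℝ)) atTop atTop :=
    tendsto_natCast_atTop_atTop.comp (Nat.tendsto_primeCounting.comp tendsto_nat_floor_atTop)
  refine tendsto_atTop_mono' atTop ?_ h1
  filter_upwards [eventually_ge_atTop (0 : ℝ)] with x hx
  exact_mod_cast primeCounting_le_totientValueCount x hx

/-- For every `c > 1` and `ε > 0` there are arbitrarily large `x` with
`|V (c x) / V x - c| < ε`: the number `c` is a limit point of the ratio. -/
theorem frequently_abs_lt {c ε : ℝ} (hc : 1 < c) (hε : 0 < ε) :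
    ∃ᶠ x : ℝ in atTop, |(totientValueCount (c * x) : ℝ) / totientValueCount x - c| < ε := by
  have hc0 : 0 < c := by linarith
  have hmono : Monotone (fun x : ℝ => (totientValueCount x : ℝ)) := totientValueCount_mono
  have hpos : ∀ x : ℝ, 1 ≤ x → (0 : ℝ) < totientValueCount x :=
    fun x hx => totientValueCount_pos hx
  -- the ratio along the points `j / c`
  set ρ : ℕ → ℝ := fun j => (totientValueCount (j : ℝ) : ℝ) / totientValueCount ((j : ℝ) / c)
    with hρ
  -- common facts about `j = ⌊c x⌋`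
  have hfloor : ∀ x : ℝ, 2 ≤ x →
      (totientValueCount ((⌊c * x⌋₊ : ℕ) : ℝ) : ℝ) = totientValueCount (c * x) ∧
      ((⌊c * x⌋₊ : ℕ) : ℝ) / c ≤ x ∧ 1 ≤ ((⌊c * x⌋₊ : ℕ) : ℝ) / c ∧
      x ≤ ((⌊c * x⌋₊ : ℕ) : ℝ) / c + 1 := by
    intro x hx2
    have hcx0 : 0 ≤ c * x := by positivity
    have hj1 : ((⌊c * x⌋₊ : ℕ) : ℝ) ≤ c * x := Nat.floor_le hcx0
    have hj2 : c * x < ((⌊c * x⌋₊ : ℕ) : ℝ) + 1 := Nat.lt_floor_add_one _
    refine ⟨by rw [totientValueCount_floor hcx0], ?_, ?_, ?_⟩
    · rw [div_le_iff₀ hc0]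
      linarith
    · rw [le_div_iff₀ hc0]
      nlinarith
    · have h1 : x * c ≤ (((⌊c * x⌋₊ : ℕ) : ℝ) / c + 1) * c := by
        have h2 : (((⌊c * x⌋₊ : ℕ) : ℝ) / c + 1) * c = ((⌊c * x⌋₊ : ℕ) : ℝ) + c := by
          field_simp
        rw [h2]
        linarith
      exact le_of_mul_le_mul_right h1 hc0
  -- frequently above `c - ε`
  have hgt : ∀ N : ℕ, ∃ j ≥ N, c - ε < ρ j := by
    intro N
    have hf := (totient_ratio.1 c ε hc hε).2
    obtain ⟨x, hx, hxr⟩ := (frequently_atTop.mp hf) (max ((N : ℝ) + 1) 2)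
    have hx2 : (2 : ℝ) ≤ x := le_trans (le_max_right _ _) hx
    have hxN : (N : ℝ) + 1 ≤ x := le_trans (le_max_left _ _) hx
    obtain ⟨hnum, hjc, hjc1, -⟩ := hfloor x hx2
    refine ⟨⌊c * x⌋₊, ?_, ?_⟩
    · apply Nat.le_floor
      nlinarith
    · have hden : (totientValueCount (((⌊c * x⌋₊ : ℕ) : ℝ) / c) : ℝ) ≤ totientValueCount x :=
        hmono hjc
      have hdpos : (0 : ℝ) < totientValueCount (((⌊c * x⌋₊ : ℕ) : ℝ) / c) := hpos _ hjc1
      have hnn : (0 : ℝ) ≤ totientValueCount (c * x) := Nat.cast_nonneg _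
      calc c - ε < (totientValueCount (c * x) : ℝ) / totientValueCount x := hxr
        _ ≤ (totientValueCount (c * x) : ℝ) / totientValueCount (((⌊c * x⌋₊ : ℕ) : ℝ) / c) :=
            div_le_div_of_nonneg_left hnn hdpos hden
        _ = ρ ⌊c * x⌋₊ := by
            simp only [hρ]
            rw [hnum]
  -- frequently below `c + ε`
  have hlt : ∀ N : ℕ, ∃ j ≥ N, ρ j < c + ε := by
    intro N
    obtain ⟨X0, hX0⟩ := eventually_atTop.mp
      (tendsto_atTop.mp totientValueCount_tendsto (2 * (c + ε) / ε + 1))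
    have hf := (totient_ratio.1 c (ε / 2) hc (by linarith)).1
    obtain ⟨x, hx, hxr⟩ := (frequently_atTop.mp hf) (max (max ((N : ℝ) + 1) 2) X0)
    have hx2 : (2 : ℝ) ≤ x := le_trans (le_trans (le_max_right _ _) (le_max_left _ _)) hx
    have hxN : (N : ℝ) + 1 ≤ x := le_trans (le_trans (le_max_left _ _) (le_max_left _ _)) hx
    have hxX0 : X0 ≤ x := le_trans (le_max_right _ _) hx
    obtain ⟨hnum, hjc, hjc1, hx1⟩ := hfloor x hx2
    refine ⟨⌊c * x⌋₊, ?_, ?_⟩
    · apply Nat.le_floor
      nlinarith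
    · have hB : 2 * (c + ε) / ε + 1 ≤ (totientValueCount x : ℝ) := hX0 x hxX0
      have hB2 : 2 * (c + ε) ≤ (totientValueCount x : ℝ) * ε := by
        have h1 : 2 * (c + ε) / ε ≤ (totientValueCount x : ℝ) := by linarith
        exact (div_le_iff₀ hε).mp h1
      have hBpos : (0 : ℝ) < totientValueCount x := hpos x (by linarith)
      have hB' : (totientValueCount x : ℝ) ≤ totientValueCount (((⌊c * x⌋₊ : ℕ) : ℝ) / c) + 1 :=
        totientValueCount_le_add_one hx1
      have hdpos : (0 : ℝ) < totientValueCount (((⌊c * x⌋₊ : ℕ) : ℝ) / c) := hpos _ hjc1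
      have hA : (totientValueCount (c * x) : ℝ) < (c + ε / 2) * totientValueCount x :=
        (div_lt_iff₀ hBpos).mp hxr
      have h1 : (c + ε) * ((totientValueCount x : ℝ) - 1)
          ≤ (c + ε) * totientValueCount (((⌊c * x⌋₊ : ℕ) : ℝ) / c) :=
        mul_le_mul_of_nonneg_left (by linarith) (by linarith)
      have h2 : (c + ε / 2) * (totientValueCount x : ℝ)
          ≤ (c + ε) * ((totientValueCount x : ℝ) - 1) := by nlinarith
      simp only [hρ]
      rw [hnum, div_lt_iff₀ hdpos]
      linarith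
  -- upward jumps are small
  obtain ⟨X1, hX1⟩ := eventually_atTop.mp
    (tendsto_atTop.mp totientValueCount_tendsto (1 / ε + 1))
  have hjump : ∀ j : ℕ, c ≤ (j : ℝ) → X1 * c ≤ (j : ℝ) → ρ (j + 1) < ρ j + ε := by
    intro j hjc hjX
    have hy1 : 1 ≤ (j : ℝ) / c := by
      rw [le_div_iff₀ hc0]
      linarith
    have hyX : X1 ≤ (j : ℝ) / c := by
      rw [le_div_iff₀ hc0]
      exact hjX
    have hD : 1 / ε + 1 ≤ (totientValueCount ((j : ℝ) / c) : ℝ) := hX1 _ hyX
    have hDpos : (0 : ℝ) < totientValueCount ((j : ℝ) / c) := hpos _ hy1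
    have hden : (totientValueCount ((j : ℝ) / c) : ℝ)
        ≤ totientValueCount (((j + 1 : ℕ) : ℝ) / c) := by
      apply hmono
      apply div_le_div_of_nonneg_right _ hc0.le
      push_cast
      linarith
    have hnum : (totientValueCount ((j + 1 : ℕ) : ℝ) : ℝ) ≤ totientValueCount (j : ℝ) + 1 := by
      apply totientValueCount_le_add_one
      push_cast
      linarith
    have hnn : (0 : ℝ) ≤ totientValueCount (j : ℝ) + 1 := by positivity
    have h1 : ρ (j + 1) ≤ ((totientValueCount (j : ℝ) : ℝ) + 1) / totientValueCount ((j : ℝ) / c) := by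
      simp only [hρ]
      calc (totientValueCount ((j + 1 : ℕ) : ℝ) : ℝ) / totientValueCount (((j + 1 : ℕ) : ℝ) / c)
          ≤ ((totientValueCount (j : ℝ) : ℝ) + 1) / totientValueCount (((j + 1 : ℕ) : ℝ) / c) :=
            div_le_div_of_nonneg_right hnum (le_trans hDpos.le hden)
        _ ≤ ((totientValueCount (j : ℝ) : ℝ) + 1) / totientValueCount ((j : ℝ) / c) :=
            div_le_div_of_nonneg_left hnn hDpos hden
    have h2 : ((totientValueCount (j : ℝ) : ℝ) + 1) / totientValueCount ((j : ℝ) / c)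
        = ρ j + 1 / totientValueCount ((j : ℝ) / c) := by
      simp only [hρ]
      rw [add_div]
    have h3 : 1 / (totientValueCount ((j : ℝ) / c) : ℝ) < ε := by
      rw [div_lt_iff₀ hDpos]
      have h4 : 1 / ε < (totientValueCount ((j : ℝ) / c) : ℝ) := by linarith
      have h5 := (div_lt_iff₀ hε).mp h4
      linarith
    linarith
  -- conversion from the sequence to real `x`
  have hconv : ∀ j : ℕ,
      (totientValueCount (c * ((j : ℝ) / c)) : ℝ) / totientValueCount ((j : ℝ) / c) = ρ j := by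
    intro j
    simp only [hρ]
    rw [mul_div_cancel₀ _ hc0.ne']
  rw [frequently_atTop]
  intro a
  obtain ⟨N, hN⟩ := exists_nat_ge (max (max (a * c) (X1 * c)) c)
  have hNa : a * c ≤ (N : ℝ) := le_trans (le_trans (le_max_left _ _) (le_max_left _ _)) hN
  have hNX : X1 * c ≤ (N : ℝ) := le_trans (le_trans (le_max_right _ _) (le_max_left _ _)) hN
  have hNc : c ≤ (N : ℝ) := le_trans (le_max_right _ _) hN
  obtain ⟨n1, hn1, hlt1⟩ := hlt N
  have hn1' : (N : ℝ) ≤ (n1 : ℝ) := by exact_mod_cast hn1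
  by_cases hcase : c - ε < ρ n1
  · refine ⟨(n1 : ℝ) / c, ?_, ?_⟩
    · rw [le_div_iff₀ hc0]
      linarith
    · rw [hconv, abs_lt]
      constructor <;> linarith
  · rw [not_lt] at hcase
    obtain ⟨n2, hn2, hgt2⟩ := hgt n1
    have hne : n1 ≠ n2 := by
      rintro rfl
      linarith
    have hex : ∃ j, n1 < j ∧ c - ε < ρ j := ⟨n2, lt_of_le_of_ne hn2 hne, hgt2⟩
    classical
    obtain ⟨hnlt, hngt⟩ := Nat.find_spec hex
    have hprev : ρ (Nat.find hex - 1) ≤ c - ε := by
      by_cases h : Nat.find hex - 1 = n1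
      · rw [h]
        exact hcase
      · by_contra hcon
        rw [not_le] at hcon
        have hmin := Nat.find_min hex (m := Nat.find hex - 1) (by omega)
        exact hmin ⟨by omega, hcon⟩
    have hge1 : (n1 : ℝ) ≤ ((Nat.find hex - 1 : ℕ) : ℝ) := by
      have : n1 ≤ Nat.find hex - 1 := by omega
      exact_mod_cast this
    have hstep := hjump (Nat.find hex - 1) (by linarith) (by linarith)
    have hsucc : Nat.find hex - 1 + 1 = Nat.find hex := by omega
    rw [hsucc] at hstep
    have hge2 : (n1 : ℝ) ≤ ((Nat.find hex : ℕ) : ℝ) := by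
      have : n1 ≤ Nat.find hex := by omega
      exact_mod_cast this
    refine ⟨((Nat.find hex : ℕ) : ℝ) / c, ?_, ?_⟩
    · rw [le_div_iff₀ hc0]
      linarith
    · rw [hconv, abs_lt]
      constructor <;> linarith

end Vale.Agent.Lib.P031
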