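import Mathlib
import Vale.Agent.Lib.P031.Abstract

namespace Vale.Agent.Lib.P031

open Filter Topology

theorem irrational_log_two_div_log_three : Irrational (Real.log 2 / Real.log 3) := by
  have hl2 : 0 < Real.log 2 := Real.log_pos (by norm_num)
  have hl3 : 0 < Real.log 3 := Real.log_pos (by norm_num)
  rw [irrational_iff_ne_rational]
  intro a b hb heq
  -- reduce to positive denominator
  wlog hbpos : 0 < b generalizing a b
  · have hb' : 0 < -b := by
      rcases lt_or_gt_of_ne hb with h | h
      · linarith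
      · exact absurd h hbpos
    refine this (-a) (-b) (by omega) ?_ hb'
    rw [heq]; push_cast; rw [neg_div_neg_eq]
  have hbR : (0 : ℝ) < b := by exact_mod_cast hbpos
  have hapos : 0 < a := by
    have h1 : (0 : ℝ) < (a : ℝ) / b := by rw [← heq]; positivity
    have h2 : (0 : ℝ) < a := by
      by_contra hcon
      push Not at hcon
      have : (a : ℝ) / b ≤ 0 := div_nonpos_of_nonpos_of_nonneg hcon hbR.le
      linarith
    exact_mod_cast h2
  -- `b * log 2 = a * log 3`
  have hmul : (b : ℝ) * Real.log 2 = a * Real.log 3 := by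
    field_simp at heq
    linarith
  obtain ⟨n, rfl⟩ := Int.eq_ofNat_of_zero_le hapos.le
  obtain ⟨m, rfl⟩ := Int.eq_ofNat_of_zero_le hbpos.le
  have hm : 0 < m := by exact_mod_cast hbpos
  have hpow : (2 : ℝ) ^ m = 3 ^ n := by
    have h1 : Real.log ((2 : ℝ) ^ m) = Real.log ((3 : ℝ) ^ n) := by
      rw [Real.log_pow, Real.log_pow]
      exact_mod_cast hmul
    exact Real.log_injOn_pos (Set.mem_Ioi.2 (by positivity)) (Set.mem_Ioi.2 (by positivity)) h1
  have hnat : (2 : ℕ) ^ m = 3 ^ n := by exact_mod_cast hpow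
  have heven : Even ((2 : ℕ) ^ m) := (Nat.even_pow.2 ⟨even_two, hm.ne'⟩)
  have hodd : Odd ((3 : ℕ) ^ n) := Odd.pow (by decide)
  rw [hnat] at heven
  exact (Nat.not_even_iff_odd.2 hodd) heven

section regvar

variable {V : ℝ → ℝ}

/-- Regular variation from two multiplicatively independent ratios: if `V` is monotone, positive
on `[1, ∞)`, and `V (c₁ x) / V x → c₁`, `V (c₂ x) / V x → c₂` with `log c₁ / log c₂` irrational,
then `V (c x) / V x → c` for all `c > 0`. -/
theorem tendsto_ratio_of_pair (hpos : ∀ x, 1 ≤ x → 0 < V x) (hmono : Monotone V)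
    {c₁ c₂ : ℝ} (hc₁ : 0 < c₁) (hc₂ : 0 < c₂)
    (hirr : Irrational (Real.log c₁ / Real.log c₂))
    (h2 : Tendsto (fun x => V (c₁ * x) / V x) atTop (𝓝 c₁))
    (h3 : Tendsto (fun x => V (c₂ * x) / V x) atTop (𝓝 c₂)) :
    ∀ c : ℝ, 0 < c → Tendsto (fun x => V (c * x) / V x) atTop (𝓝 c) := by
  -- the additive subgroup of exponents `u` such that the ratio for `exp u` tends to `exp u`
  let T : ℝ → Prop := fun u =>
    Tendsto (fun x => V (Real.exp u * x) / V x) atTop (𝓝 (Real.exp u))
  have hT0 : T 0 := by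
    show Tendsto (fun x => V (Real.exp 0 * x) / V x) atTop (𝓝 (Real.exp 0))
    rw [Real.exp_zero]
    refine tendsto_const_nhds.congr' ?_
    filter_upwards [eventually_ge_atTop (1 : ℝ)] with x hx
    rw [one_mul, div_self (hpos x hx).ne']
  have hTadd : ∀ u v, T u → T v → T (u + v) := by
    intro u v hu hv
    show Tendsto (fun x => V (Real.exp (u + v) * x) / V x) atTop (𝓝 (Real.exp (u + v)))
    rw [Real.exp_add]
    have hcomp : Tendsto (fun x => V (Real.exp u * (Real.exp v * x)) / V (Real.exp v * x)) atTop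
        (𝓝 (Real.exp u)) :=
      hu.comp (Tendsto.const_mul_atTop (Real.exp_pos v) tendsto_id)
    refine (hcomp.mul hv).congr' ?_
    have hev : ∀ᶠ x : ℝ in atTop, 1 ≤ Real.exp v * x :=
      (Tendsto.const_mul_atTop (Real.exp_pos v) tendsto_id).eventually (eventually_ge_atTop 1)
    filter_upwards [hev, eventually_ge_atTop (1 : ℝ)] with x hx hx1
    have h1 := (hpos _ hx).ne'
    have h2 := (hpos x hx1).ne'
    rw [mul_assoc]
    field_simp
  have hTneg : ∀ u, T u → T (-u) := by
    intro u hu
    show Tendsto (fun x => V (Real.exp (-u) * x) / V x) atTop (𝓝 (Real.exp (-u)))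
    rw [Real.exp_neg]
    have hcomp : Tendsto (fun x => V (Real.exp u * ((Real.exp u)⁻¹ * x)) / V ((Real.exp u)⁻¹ * x))
        atTop (𝓝 (Real.exp u)) :=
      hu.comp (Tendsto.const_mul_atTop (inv_pos.2 (Real.exp_pos u)) tendsto_id)
    refine (hcomp.inv₀ (Real.exp_pos u).ne').congr' ?_
    filter_upwards with x
    have : Real.exp u * ((Real.exp u)⁻¹ * x) = x := by
      rw [← mul_assoc, mul_inv_cancel₀ (Real.exp_pos u).ne', one_mul]
    rw [this, inv_div]
  let S : AddSubgroup ℝ :=
    { carrier := {u | T u}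
      add_mem' := fun {u v} hu hv => hTadd u v hu hv
      zero_mem' := hT0
      neg_mem' := fun {u} hu => hTneg u hu }
  have hS2 : Real.log c₁ ∈ S := by
    show Tendsto (fun x => V (Real.exp (Real.log c₁) * x) / V x) atTop
      (𝓝 (Real.exp (Real.log c₁)))
    rw [Real.exp_log hc₁]
    exact h2
  have hS3 : Real.log c₂ ∈ S := by
    show Tendsto (fun x => V (Real.exp (Real.log c₂) * x) / V x) atTop
      (𝓝 (Real.exp (Real.log c₂)))
    rw [Real.exp_log hc₂]
    exact h3
  have hcl : AddSubgroup.closure {Real.log c₁, Real.log c₂} ≤ S := by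
    rw [AddSubgroup.closure_le]
    intro u hu
    rcases hu with rfl | rfl
    · exact hS2
    · exact hS3
  have hdense : Dense (S : Set ℝ) :=
    (dense_addSubgroupClosure_pair_iff.2 hirr).mono hcl
  intro c hc
  have hev1 : ∀ᶠ x : ℝ in atTop, 1 ≤ x := eventually_ge_atTop 1
  rw [tendsto_order]
  constructor
  · intro a ha
    by_cases ha0 : a ≤ 0
    · have hevc : ∀ᶠ x : ℝ in atTop, 1 ≤ c * x :=
        (Tendsto.const_mul_atTop hc tendsto_id).eventually (eventually_ge_atTop 1)
      filter_upwards [hev1, hevc] with x hx hcx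
      exact lt_of_le_of_lt ha0 (div_pos (hpos _ hcx) (hpos x hx))
    · push Not at ha0
      obtain ⟨u, huS, hu1, hu2⟩ := hdense.exists_between (Real.log_lt_log ha0 ha)
      have hTu : T u := huS
      have hau : a < Real.exp u := by
        rw [← Real.exp_log ha0]; exact Real.exp_lt_exp.2 hu1
      have huc : Real.exp u < c := by
        rw [← Real.exp_log hc]; exact Real.exp_lt_exp.2 hu2
      filter_upwards [hTu.eventually (lt_mem_nhds hau), hev1] with x hx hx1
      refine lt_of_lt_of_le hx ?_
      exact div_le_div_of_nonneg_right (hmono (by nlinarith)) (hpos x hx1).le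
  · intro b hb
    obtain ⟨u, huS, hu1, hu2⟩ := hdense.exists_between (Real.log_lt_log hc hb)
    have hTu : T u := huS
    have hub : Real.exp u < b := by
      rw [← Real.exp_log (hc.trans hb)]; exact Real.exp_lt_exp.2 hu2
    have hcu : c < Real.exp u := by
      rw [← Real.exp_log hc]; exact Real.exp_lt_exp.2 hu1
    filter_upwards [hTu.eventually (gt_mem_nhds hub), hev1] with x hx hx1
    refine lt_of_le_of_lt ?_ hx
    exact div_le_div_of_nonneg_right (hmono (by nlinarith)) (hpos x hx1).le

end regvar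

end Vale.Agent.Lib.P031
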