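import Mathlib
import Vale.Agent.Lib.P031.Defs
import Vale.Agent.Lib.P031.Abstract
import Vale.Agent.Lib.P031.RegVar

namespace Vale.Agent.Lib.P031

open Filter Topology

/-- The set of totient values at most `x`. -/
def totientValues (x : ℝ) : Set ℕ := {v : ℕ | (v : ℝ) ≤ x ∧ ∃ n : ℕ, 0 < n ∧ Nat.totient n = v}

theorem totientValueCount_eq (x : ℝ) : totientValueCount x = (totientValues x).ncard := rfl

theorem totientValues_subset_Icc (x : ℝ) : totientValues x ⊆ ↑(Finset.Icc 1 ⌊x⌋₊) := by
  rintro v ⟨hv, n, hn, rfl⟩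
  simp only [Finset.coe_Icc, Set.mem_Icc]
  have h1 : 0 < Nat.totient n := Nat.totient_pos.2 hn
  refine ⟨h1, Nat.le_floor hv⟩

theorem totientValues_finite (x : ℝ) : (totientValues x).Finite :=
  (Finset.finite_toSet _).subset (totientValues_subset_Icc x)

theorem totientValues_mono {x y : ℝ} (h : x ≤ y) : totientValues x ⊆ totientValues y := by
  rintro v ⟨hv, hn⟩
  exact ⟨hv.trans h, hn⟩

theorem totientValueCount_mono : Monotone (fun x : ℝ => (totientValueCount x : ℝ)) := by
  intro x y h
  simp only [totientValueCount_eq]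
  exact_mod_cast Set.ncard_le_ncard (totientValues_mono h) (totientValues_finite y)

theorem totientValueCount_le {x : ℝ} (hx : 0 ≤ x) : (totientValueCount x : ℝ) ≤ x := by
  have h1 : (totientValues x).ncard ≤ (Finset.Icc 1 ⌊x⌋₊).card := by
    have := Set.ncard_le_ncard (totientValues_subset_Icc x) (Finset.finite_toSet _)
    rwa [Set.ncard_coe_finset] at this
  have h2 : (Finset.Icc 1 ⌊x⌋₊).card = ⌊x⌋₊ := by simp
  rw [totientValueCount_eq]
  calc ((totientValues x).ncard : ℝ) ≤ (⌊x⌋₊ : ℝ) := by exact_mod_cast h1.trans h2.le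
    _ ≤ x := Nat.floor_le hx

theorem totientValueCount_pos {x : ℝ} (hx : 1 ≤ x) : (0 : ℝ) < totientValueCount x := by
  have hmem : 1 ∈ totientValues x := ⟨by simpa using hx, 1, one_pos, by simp⟩
  have : 0 < (totientValues x).ncard :=
    (Set.ncard_pos (totientValues_finite x)).2 ⟨1, hmem⟩
  rw [totientValueCount_eq]
  exact_mod_cast this

theorem primeCounting_le_totientValueCount (x : ℝ) (hx : 0 ≤ x) :
    Nat.primeCounting ⌊x⌋₊ ≤ totientValueCount x := by
  classical
  rw [← Nat.primesLE_card_eq_primeCounting, totientValueCount_eq]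
  have hinj : Set.InjOn (fun p : ℕ => p - 1) (Nat.primesLE ⌊x⌋₊ : Set ℕ) := by
    intro p hp q hq hpq
    have h1 := Nat.one_lt_of_mem_primesLE hp
    have h2 := Nat.one_lt_of_mem_primesLE hq
    simp only at hpq
    omega
  rw [← Finset.card_image_of_injOn hinj, ← Set.ncard_coe_finset]
  refine Set.ncard_le_ncard ?_ (totientValues_finite x)
  intro v hv
  simp only [Finset.coe_image, Set.mem_image, Finset.mem_coe] at hv
  obtain ⟨p, hp, rfl⟩ := hv
  have hpp := Nat.prime_of_mem_primesLE hp
  have hple := Nat.le_of_mem_primesLE hp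
  refine ⟨?_, p, hpp.pos, Nat.totient_prime hpp⟩
  have h1 : ((p - 1 : ℕ) : ℝ) ≤ (⌊x⌋₊ : ℝ) := by exact_mod_cast (Nat.sub_le p 1).trans hple
  exact h1.trans (Nat.floor_le hx)

theorem log_add_two_le {y : ℝ} (hy : 258 ≤ y) : Real.log (y + 2) ≤ y / 8 := by
  have hpos : 0 < y + 2 := by linarith
  have h1 : Real.log (y + 2) = 2 * Real.log (Real.sqrt (y + 2)) := by
    rw [Real.log_sqrt hpos.le]; ring
  have h2 : Real.log (Real.sqrt (y + 2)) ≤ Real.sqrt (y + 2) - 1 :=
    Real.log_le_sub_one_of_pos (Real.sqrt_pos.2 hpos)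
  have h3 : Real.sqrt (y + 2) ≤ y / 16 := by
    rw [Real.sqrt_le_left (by linarith)]
    nlinarith
  linarith

theorem totientValueCount_ge {y : ℝ} (hy : 258 ≤ y) :
    y / (4 * Real.log y) ≤ totientValueCount y := by
  have hy1 : 1 < y := by linarith
  have hlog : 0 < Real.log y := Real.log_pos hy1
  have h1 := Chebyshev.pi_ge' hy1
  have h2 : (Nat.primeCounting ⌊y⌋₊ : ℝ) ≤ totientValueCount y := by
    exact_mod_cast primeCounting_le_totientValueCount y (by linarith)
  refine le_trans ?_ (h1.trans h2)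
  rw [div_le_div_iff₀ (by positivity) hlog]
  have h3 := log_add_two_le hy
  have h4 : (0.6931471803 : ℝ) < Real.log 2 := Real.log_two_gt_d9
  have h5 : y / 4 ≤ (y - 1) * Real.log 2 - Real.log (y + 2) := by nlinarith
  nlinarith

/-- The assembled statement on the ratio `V (c x) / V x` for the totient value counting
function. -/
theorem totient_ratio :
    (∀ c ε : ℝ, 1 < c → 0 < ε →
      (∃ᶠ x : ℝ in atTop, (totientValueCount (c * x) : ℝ) / totientValueCount x < c + ε) ∧
      (∃ᶠ x : ℝ in atTop, c - ε < (totientValueCount (c * x) : ℝ) / totientValueCount x)) ∧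
    (∀ c₁ c₂ : ℝ, 1 < c₁ → 1 < c₂ → Irrational (Real.log c₁ / Real.log c₂) →
      (∃ a : ℝ, Tendsto (fun x : ℝ => (totientValueCount (c₁ * x) : ℝ) / totientValueCount x)
        atTop (𝓝 a)) →
      (∃ b : ℝ, Tendsto (fun x : ℝ => (totientValueCount (c₂ * x) : ℝ) / totientValueCount x)
        atTop (𝓝 b)) →
      ∀ c : ℝ, 0 < c →
        Tendsto (fun x : ℝ => (totientValueCount (c * x) : ℝ) / totientValueCount x)
          atTop (𝓝 c)) ∧
    ((∃ a : ℝ, Tendsto (fun x : ℝ => (totientValueCount (2 * x) : ℝ) / totientValueCount x)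
        atTop (𝓝 a)) →
      (∃ b : ℝ, Tendsto (fun x : ℝ => (totientValueCount (3 * x) : ℝ) / totientValueCount x)
        atTop (𝓝 b)) →
      ∀ c : ℝ, 0 < c →
        Tendsto (fun x : ℝ => (totientValueCount (c * x) : ℝ) / totientValueCount x)
          atTop (𝓝 c)) := by
  have hpos : ∀ x : ℝ, 1 ≤ x → (0 : ℝ) < totientValueCount x := fun x hx => totientValueCount_pos hx
  have hle : ∀ x : ℝ, 0 ≤ x → (totientValueCount x : ℝ) ≤ x := fun x hx => totientValueCount_le hx
  have hge : ∀ y : ℝ, 258 ≤ y → y / (4 * Real.log y) ≤ totientValueCount y :=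
    fun y hy => totientValueCount_ge hy
  have key : ∀ c₁ c₂ : ℝ, 1 < c₁ → 1 < c₂ → Irrational (Real.log c₁ / Real.log c₂) →
      (∃ a : ℝ, Tendsto (fun x : ℝ => (totientValueCount (c₁ * x) : ℝ) / totientValueCount x)
        atTop (𝓝 a)) →
      (∃ b : ℝ, Tendsto (fun x : ℝ => (totientValueCount (c₂ * x) : ℝ) / totientValueCount x)
        atTop (𝓝 b)) →
      ∀ c : ℝ, 0 < c →
        Tendsto (fun x : ℝ => (totientValueCount (c * x) : ℝ) / totientValueCount x)
          atTop (𝓝 c) := by
    rintro c₁ c₂ hc₁ hc₂ hirr ⟨a, ha⟩ ⟨b, hb⟩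
    have ha2 : a = c₁ := limit_eq (V := fun x => (totientValueCount x : ℝ)) hpos hle
      totientValueCount_mono hge hc₁ ha
    have hb3 : b = c₂ := limit_eq (V := fun x => (totientValueCount x : ℝ)) hpos hle
      totientValueCount_mono hge hc₂ hb
    subst ha2 hb3
    exact tendsto_ratio_of_pair (V := fun x => (totientValueCount x : ℝ)) hpos
      totientValueCount_mono (by linarith) (by linarith) hirr ha hb
  refine ⟨fun c ε hc hε => ⟨?_, ?_⟩, key, ?_⟩
  · exact frequently_lt (V := fun x => (totientValueCount x : ℝ)) hpos hle hc hε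
  · exact frequently_gt (V := fun x => (totientValueCount x : ℝ)) hpos hle
      totientValueCount_mono hge hc hε
  · exact key 2 3 (by norm_num) (by norm_num) irrational_log_two_div_log_three

end Vale.Agent.Lib.P031
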